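import Vale.Agent.P039.Bar.Props
import Vale.Agent.P039.H311.Four

/-! `P_STEP4` of the frozen frame `Bar/Props.lean`, from `H311/Four.lean`. -/

namespace Vale.Agent.P039.Bar.H311

open Finset Vale.Agent.P039.Bar

theorem eps_eq : ∀ x : Fin 3, x ≠ 0 → Bar.eps x = P039.H311.eps x := by
  decide

theorem sub_ne : ∀ x y : Fin 3, x ≠ y → y - x ≠ 0 := by
  decide

theorem step4 : P_STEP4 := by
  classical
  intro B V _ _ F u hF hC hex
  have hC' : P039.H311.Cyc F u := by
    intro f g e e' he he' hd b1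
    obtain ⟨h1, s, hs, h2, h3⟩ := hC f g e e' he he' hd b1
    have hset : (univ.filter (fun b => (P039.H311.per e e').SameCycle b1 b))
        = orb (e.trans e'.symm) b1 := by
      ext b
      simp only [orb, mem_filter, mem_univ, true_and]
      exact Iff.rfl
    rw [hset]
    refine ⟨h1, ?_⟩
    have h4 : (∏ b ∈ orb (e.trans e'.symm) b1, P039.H311.eps (g b - f b))
        = s * (-1) ^ (((orb (e.trans e'.symm) b1).card + 1) / 2) := by
      rw [← h3]
      apply Finset.prod_congr rfl
      intro b _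
      exact (eps_eq _ (sub_ne _ _ (hd b))).symm
    rw [h4]
    push_cast
    have h5 : ((-1 : ℝ) ^ (((orb (e.trans e'.symm) b1).card + 1) / 2))
        * ((-1 : ℝ) ^ (((orb (e.trans e'.symm) b1).card + 1) / 2)) = 1 := by
      rw [← mul_pow]; norm_num
    calc (0 : ℝ) < (s : ℝ) * ∑ b ∈ orb (e.trans e'.symm) b1, (u b (f b) - u b (g b)) := h2
      _ = (((-1 : ℝ) ^ (((orb (e.trans e'.symm) b1).card + 1) / 2))
        * ((-1 : ℝ) ^ (((orb (e.trans e'.symm) b1).card + 1) / 2)))
          * ((s : ℝ) * ∑ b ∈ orb (e.trans e'.symm) b1, (u b (f b) - u b (g b))) := by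
            rw [h5, one_mul]
      _ = _ := by ring
  obtain ⟨f, ⟨e, he⟩, hne⟩ := P039.H311.four F u hC' hex
  refine ⟨f, e, he, ?_⟩
  intro h0
  apply hne
  rw [← h0]
  unfold Ssum
  rw [Finset.sum_filter]
  apply Finset.sum_congr rfl
  intro g _
  by_cases hg : ∃ e' : B ≃ V, IsMat F g e'
  · rw [if_pos hg]
    by_cases hd : Disj f g
    · rw [if_pos ⟨hg, hd⟩]
      unfold P039.H311.sg Bar.sg
      apply Finset.prod_congr rfl
      intro b _
      exact (eps_eq _ (sub_ne _ _ (hd b))).symm
    · rw [if_neg (fun h => hd h.2)]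
      unfold Bar.Disj at hd
      push Not at hd
      obtain ⟨b, hb⟩ := hd
      unfold Bar.sg
      symm
      apply Finset.prod_eq_zero (mem_univ b)
      rw [hb, sub_self]
      rfl
  · rw [if_neg (fun h => hg h.1), if_neg hg]

end Vale.Agent.P039.Bar.H311
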